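import Mathlib

set_option autoImplicit false

namespace IMM5

/-- block length -/
noncomputable def tt (n : ℕ) : ℕ := ⌈Real.sqrt n⌉₊

/-- number of blocks -/
noncomputable def rr (n : ℕ) : ℕ := ⌈(n : ℝ) / ⌈Real.sqrt n⌉₊⌉₊

theorem tt_pos {n : ℕ} (hn : 1 ≤ n) : 1 ≤ tt n := by
  unfold tt
  have : 0 < Real.sqrt n := Real.sqrt_pos.mpr (by exact_mod_cast hn)
  exact Nat.ceil_pos.mpr this

theorem tt_two : tt 2 = 2 := by
  unfold tt
  rw [Nat.ceil_eq_iff (by norm_num)]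
  constructor
  · have : (1:ℝ) < Real.sqrt 2 := by
      rw [show (1:ℝ) = Real.sqrt 1 by simp]
      exact Real.sqrt_lt_sqrt (by norm_num) (by norm_num)
    simpa using this
  · have : Real.sqrt 2 ≤ 2 := by
      rw [Real.sqrt_le_left (by norm_num)]
      norm_num
    simpa using this

theorem rr_two : rr 2 = 1 := by
  have h := tt_two
  unfold tt at h
  unfold rr
  rw [h]
  norm_num

theorem le_rr_mul_tt {n : ℕ} (hn : 1 ≤ n) : n ≤ rr n * tt n := by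
  have ht : (0:ℝ) < (tt n : ℝ) := by exact_mod_cast tt_pos hn
  have h1 : (n : ℝ) / (tt n : ℝ) ≤ (rr n : ℝ) := Nat.le_ceil _
  rw [div_le_iff₀ ht] at h1
  exact_mod_cast h1

theorem rr_pos {n : ℕ} (hn : 1 ≤ n) : 1 ≤ rr n := by
  rcases Nat.eq_zero_or_pos (rr n) with h | h
  · have := le_rr_mul_tt hn
    rw [h] at this
    omega
  · exact h

theorem rr_pred_mul_tt_lt {n : ℕ} (hn : 1 ≤ n) : (rr n - 1) * tt n < n := by
  have ht : (0:ℝ) < (tt n : ℝ) := by exact_mod_cast tt_pos hn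
  have h1 : ((rr n : ℕ) : ℝ) < (n : ℝ) / (tt n : ℝ) + 1 :=
    Nat.ceil_lt_add_one (by positivity)
  have h2 : (((rr n - 1 : ℕ) : ℝ)) < (n : ℝ) / (tt n : ℝ) := by
    rw [Nat.cast_sub (rr_pos hn)]
    push_cast
    linarith
  rw [lt_div_iff₀ ht] at h2
  exact_mod_cast h2

theorem sqrt_le_tt (n : ℕ) : Real.sqrt n ≤ tt n := Nat.le_ceil _

theorem tt_lt (n : ℕ) : (tt n : ℝ) < Real.sqrt n + 1 :=
  Nat.ceil_lt_add_one (Real.sqrt_nonneg _)

theorem rr_le_tt {n : ℕ} (hn : 1 ≤ n) : rr n ≤ tt n := by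
  have ht : (0:ℝ) < (tt n : ℝ) := by exact_mod_cast tt_pos hn
  unfold rr
  apply Nat.ceil_le.mpr
  change (n : ℝ) / (tt n : ℝ) ≤ (tt n : ℝ)
  rw [div_le_iff₀ ht]
  have h := sqrt_le_tt n
  have h0 := Real.sqrt_nonneg (n : ℝ)
  calc (n : ℝ) = Real.sqrt n * Real.sqrt n := (Real.mul_self_sqrt (Nat.cast_nonneg n)).symm
    _ ≤ (tt n : ℝ) * (tt n : ℝ) := mul_le_mul h h h0 (by linarith)

theorem tt_le {n : ℕ} (hn : 1 ≤ n) : tt n ≤ n := by
  unfold tt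
  apply Nat.ceil_le.mpr
  rw [Real.sqrt_le_left (by positivity)]
  have : (1:ℝ) ≤ n := by exact_mod_cast hn
  nlinarith

theorem num_bound {n : ℕ} (hn : 2 ≤ n) :
    ((2 * n ^ 3 + rr n * n ^ 2 + rr n * n ^ (tt n + 1) + n ^ (rr n - 1) + 1 : ℕ) : ℝ)
      ≤ (n : ℝ) ^ (Real.sqrt n + 4) := by
  rcases Nat.lt_or_ge n 3 with h3 | h3
  · have : n = 2 := by omega
    subst this
    rw [tt_two, rr_two]
    have h1 : ((2:ℕ) : ℝ) ^ (5:ℝ) ≤ ((2:ℕ) : ℝ) ^ (Real.sqrt ((2:ℕ):ℝ) + 4) := by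
      apply Real.rpow_le_rpow_of_exponent_le (by norm_num)
      have : (1:ℝ) ≤ Real.sqrt ((2:ℕ):ℝ) := by
        rw [show (1:ℝ) = Real.sqrt 1 by simp]
        exact Real.sqrt_le_sqrt (by norm_num)
      linarith
    refine le_trans ?_ h1
    have : ((2:ℕ) : ℝ) ^ (5:ℝ) = 32 := by
      rw [show (5:ℝ) = ((5:ℕ):ℝ) by norm_num, Real.rpow_natCast]
      norm_num
    rw [this]
    norm_num
  · have hn1 : 1 ≤ n := by omega
    have hn0 : (0:ℝ) < n := by exact_mod_cast hn1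
    have hn1' : (1:ℝ) ≤ n := by exact_mod_cast hn1
    have hn3 : (3:ℝ) ≤ n := by exact_mod_cast h3
    set X : ℝ := (n : ℝ) ^ (Real.sqrt n) with hX
    have hsq1 : (1:ℝ) ≤ Real.sqrt n := by
      rw [show (1:ℝ) = Real.sqrt 1 by simp]
      exact Real.sqrt_le_sqrt hn1'
    have hXn : (n : ℝ) ≤ X := by
      calc (n : ℝ) = (n : ℝ) ^ (1:ℝ) := (Real.rpow_one _).symm
        _ ≤ X := Real.rpow_le_rpow_of_exponent_le hn1' hsq1
    have hpow : (n : ℝ) ^ (Real.sqrt n + 4) = X * (n:ℝ) ^ 4 := by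
      rw [Real.rpow_add hn0, hX]
      congr 1
      rw [show (4:ℝ) = ((4:ℕ):ℝ) by norm_num, Real.rpow_natCast]
    have ht1 : (n : ℝ) ^ (tt n + 1) ≤ X * (n:ℝ) ^ 2 := by
      calc (n : ℝ) ^ (tt n + 1) = (n:ℝ) ^ (((tt n + 1 : ℕ)) : ℝ) := (Real.rpow_natCast _ _).symm
        _ ≤ (n:ℝ) ^ (Real.sqrt n + 2) := by
            apply Real.rpow_le_rpow_of_exponent_le hn1'
            push_cast
            linarith [tt_lt n]
        _ = X * (n:ℝ) ^ 2 := by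
            rw [Real.rpow_add hn0, hX]
            congr 1
            rw [show (2:ℝ) = ((2:ℕ):ℝ) by norm_num, Real.rpow_natCast]
    have hr1 : (n : ℝ) ^ (rr n - 1) ≤ X := by
      calc (n : ℝ) ^ (rr n - 1) = (n:ℝ) ^ (((rr n - 1 : ℕ)) : ℝ) := (Real.rpow_natCast _ _).symm
        _ ≤ (n:ℝ) ^ (Real.sqrt n) := by
            apply Real.rpow_le_rpow_of_exponent_le hn1'
            have h1 : ((rr n - 1 : ℕ) : ℝ) = (rr n : ℝ) - 1 := by
              rw [Nat.cast_sub (rr_pos hn1)]; norm_num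
            rw [h1]
            have h2 : (rr n : ℝ) ≤ tt n := by exact_mod_cast rr_le_tt hn1
            linarith [tt_lt n]
        _ = X := rfl
    have hrn : (rr n : ℝ) ≤ n := by
      exact_mod_cast (rr_le_tt hn1).trans (tt_le hn1)
    have hr0 : (0:ℝ) ≤ rr n := Nat.cast_nonneg _
    rw [hpow]
    push_cast
    have hX3 : 3 ≤ X := le_trans hn3 hXn
    have h4 : (rr n : ℝ) * (n:ℝ)^2 ≤ (n:ℝ)^3 := by
      calc (rr n : ℝ) * (n:ℝ)^2 ≤ n * (n:ℝ)^2 := by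
            apply mul_le_mul_of_nonneg_right hrn (by positivity)
        _ = (n:ℝ)^3 := by ring
    have h5 : (rr n : ℝ) * (n:ℝ)^(tt n + 1) ≤ X * (n:ℝ)^3 := by
      calc (rr n : ℝ) * (n:ℝ)^(tt n + 1) ≤ n * (X * (n:ℝ) ^ 2) := by
            apply mul_le_mul hrn ht1 (by positivity) (by positivity)
        _ = X * (n:ℝ)^3 := by ring
    have h6 : (27:ℝ) ≤ (n:ℝ)^3 := by
      calc (27:ℝ) = 3^3 := by norm_num
        _ ≤ (n:ℝ)^3 := pow_le_pow_left₀ (by norm_num) hn3 3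
    have h7 : X * (n:ℝ)^4 ≥ 3 * (X * (n:ℝ)^3) := by
      have : X * (n:ℝ)^4 = n * (X * (n:ℝ)^3) := by ring
      rw [this]
      apply mul_le_mul_of_nonneg_right hn3
      positivity
    have h8 : 2 * (X * (n:ℝ)^3) ≥ 3 * (n:ℝ)^3 + X + 1 := by
      nlinarith
    linarith

end IMM5
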