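import Mathlib

set_option autoImplicit false

namespace Crest.Agent.IMM5

open Matrix

theorem rank_map_sq {F E m : Type*} [Field F] [Field E] [Fintype m] [DecidableEq m]
    (φ : F →+* E) (M : Matrix m m F) : (M.map φ).rank = M.rank := by
  classical
  obtain ⟨V, U, e, hV, hU, h⟩ := Matrix.exists_rank_normal_form M
  have hVd : IsUnit (V.map φ).det := by
    have h1 : (V.map φ).det = φ V.det := (RingHom.map_det φ V).symm
    rw [h1]
    exact ((Matrix.isUnit_iff_isUnit_det _).1 hV).map φ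
  have hUd : IsUnit (U.map φ).det := by
    have h1 : (U.map φ).det = φ U.det := (RingHom.map_det φ U).symm
    rw [h1]
    exact ((Matrix.isUnit_iff_isUnit_det _).1 hU).map φ
  have h2 : V.map φ * M.map φ * U.map φ
      = ((fromBlocks 1 0 0 0 : Matrix (Fin M.rank ⊕ Fin (Fintype.card m - M.rank))
          (Fin M.rank ⊕ Fin (Fintype.card m - M.rank)) E)).submatrix e e := by
    have h3 := congrArg (fun N => N.map φ) h
    simp only [Matrix.map_mul] at h3
    rw [h3]
    ext i j
    simp only [Matrix.map_apply, Matrix.submatrix_apply]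
    rcases e i with a | a <;> rcases e j with b | b <;>
      simp [Matrix.fromBlocks, Matrix.one_apply, apply_ite φ]
  rw [← rank_mul_eq_right_of_isUnit_det (V.map φ) (M.map φ) hVd,
    ← rank_mul_eq_left_of_isUnit_det (U.map φ) (V.map φ * M.map φ) hUd, h2, rank_submatrix,
    ← diagonal_one, ← diagonal_zero, fromBlocks_diagonal, rank_diagonal]
  rw [Fintype.card_congr (show {i // Sum.elim (fun _ : Fin M.rank => (1:E))
      (fun _ : Fin (Fintype.card m - M.rank) => (0:E)) i ≠ 0} ≃ Fin M.rank from ?_), Fintype.card_fin]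
  refine ⟨fun x => match x with | ⟨Sum.inl a, _⟩ => a | ⟨Sum.inr a, h⟩ => absurd rfl h,
    fun a => ⟨Sum.inl a, by simp⟩, ?_, ?_⟩
  · rintro ⟨a | a, ha⟩
    · rfl
    · exact absurd rfl ha
  · intro a
    rfl

theorem trace_sq_le_rank_mul {m : Type*} [Fintype m] [DecidableEq m]
    (G : Matrix m m ℝ) (hG : G.IsHermitian) :
    G.trace ^ 2 ≤ (G.rank : ℝ) * (G * G).trace := by
  classical
  have h1 : G.trace = ∑ i, hG.eigenvalues i := by
    have := hG.trace_eq_sum_eigenvalues
    simpa using this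
  have h2 : (G * G).trace = ∑ i, (hG.eigenvalues i) ^ 2 := by
    conv_lhs => rw [hG.spectral_theorem, ← map_mul]
    rw [Unitary.conjStarAlgAut_apply]
    rw [Matrix.trace_mul_cycle]
    simp [Matrix.trace, sq]
  rw [h1, h2, hG.rank_eq_card_non_zero_eigs]
  have h3 : ∑ i, hG.eigenvalues i = ∑ i ∈ Finset.univ.filter (fun i => hG.eigenvalues i ≠ 0),
      1 * hG.eigenvalues i := by
    rw [Finset.sum_filter]
    refine Finset.sum_congr rfl fun i _ => ?_
    by_cases h : hG.eigenvalues i = 0 <;> simp [h]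
  have h4 : ∑ i, (hG.eigenvalues i) ^ 2
      = ∑ i ∈ Finset.univ.filter (fun i => hG.eigenvalues i ≠ 0), (hG.eigenvalues i) ^ 2 := by
    rw [Finset.sum_filter]
    refine Finset.sum_congr rfl fun i _ => ?_
    by_cases h : hG.eigenvalues i = 0 <;> simp [h]
  rw [h3, h4]
  have h5 := Finset.sum_mul_sq_le_sq_mul_sq
    (Finset.univ.filter (fun i => hG.eigenvalues i ≠ 0)) (fun _ => (1:ℝ)) hG.eigenvalues
  have h6 : (Fintype.card {i // hG.eigenvalues i ≠ 0} : ℝ)
      = ∑ i ∈ Finset.univ.filter (fun i => hG.eigenvalues i ≠ 0), (1:ℝ) ^ 2 := by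
    rw [Fintype.card_subtype]
    simp
  rw [h6]
  exact h5

/-- the rank of a natural number matrix over a field of characteristic zero is at least
`(tr MᵀM)² / tr((MᵀM)²)`. -/
theorem rank_trace_bound (K : Type*) [Field K] [CharZero K] {m n : Type*} [Fintype m] [Fintype n]
    (A : m → n → ℕ) :
    (∑ i, ∑ j, A i j * A i j) ^ 2 ≤
      (Matrix.of (fun i j => (A i j : K))).rank *
        ∑ j1, ∑ j2, (∑ i, A i j1 * A i j2) * (∑ i, A i j1 * A i j2) := by
  classical
  set AQ : Matrix m n ℚ := Matrix.of (fun i j => (A i j : ℚ)) with hAQ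
  set AK : Matrix m n K := Matrix.of (fun i j => (A i j : K)) with hAK
  set G : Matrix n n ℚ := AQᵀ * AQ with hG
  have hGK : G.map (algebraMap ℚ K) = AKᵀ * AK := by
    ext i j
    simp [hG, hAQ, hAK, Matrix.mul_apply, Matrix.map_apply]
  have hGRapply : ∀ i j, (G.map (algebraMap ℚ ℝ)) i j = ((∑ k, A k i * A k j : ℕ) : ℝ) := by
    intro i j
    simp [hG, hAQ, Matrix.mul_apply, Matrix.map_apply]
  have hr1 : (G.map (algebraMap ℚ K)).rank = G.rank := rank_map_sq _ _
  have hr2 : (G.map (algebraMap ℚ ℝ)).rank = G.rank := rank_map_sq _ _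
  have hherm : (G.map (algebraMap ℚ ℝ)).IsHermitian := by
    ext i j
    simp only [conjTranspose_apply, hGRapply, star_trivial]
    congr 1
    refine Finset.sum_congr rfl fun k _ => mul_comm _ _
  have h := trace_sq_le_rank_mul _ hherm
  have ht1 : (G.map (algebraMap ℚ ℝ)).trace = ((∑ i, ∑ j, A i j * A i j : ℕ) : ℝ) := by
    simp only [Matrix.trace, Matrix.diag_apply, hGRapply]
    rw [← Nat.cast_sum, Finset.sum_comm]
  have ht2 : ((G.map (algebraMap ℚ ℝ)) * (G.map (algebraMap ℚ ℝ))).trace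
      = ((∑ j1, ∑ j2, (∑ i, A i j1 * A i j2) * (∑ i, A i j1 * A i j2) : ℕ) : ℝ) := by
    simp only [Matrix.trace, Matrix.diag_apply, Matrix.mul_apply, hGRapply]
    rw [Nat.cast_sum]
    refine Finset.sum_congr rfl fun j1 _ => ?_
    rw [Nat.cast_sum]
    refine Finset.sum_congr rfl fun j2 _ => ?_
    rw [Nat.cast_mul]
    congr 1
    congr 1
    refine Finset.sum_congr rfl fun k _ => mul_comm _ _
  rw [ht1, ht2, hr2, ← hr1, hGK] at h
  have h7 : (AKᵀ * AK).rank ≤ AK.rank := rank_mul_le_right _ _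
  have h8 : (((∑ i, ∑ j, A i j * A i j) ^ 2 : ℕ) : ℝ) ≤
      (((AKᵀ * AK).rank * ∑ j1, ∑ j2, (∑ i, A i j1 * A i j2) * (∑ i, A i j1 * A i j2) : ℕ) : ℝ) := by
    push_cast at h ⊢
    exact h
  exact (Nat.cast_le.1 h8).trans (Nat.mul_le_mul_right _ h7)

end Crest.Agent.IMM5
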